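import Mathlib

/-!
# P038 / H518 / Core : the comparison of the two cuts (helper518)

`N x` : closed out-neighbourhood. `cc N X = |N[X]| - |X|`.
**`main_ineq`** : outer-optimal `(P, T)`; the intersections `Y`, `Z` over closed in-neighbourhoods cost at most as much.
-/

set_option autoImplicit false
set_option linter.unusedSectionVars false

namespace Vale.Agent.P038.H518

open Finset

section sub

variable {V : Type*} [Fintype V] [DecidableEq V]

/-- submodular -/
def Sub (f : Finset V → ℤ) : Prop := ∀ X Y, f (X ∪ Y) + f (X ∩ Y) ≤ f X + f Y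

/-- additions inside `M` do not lower `f` -/
def HH (f : Finset V → ℤ) (S M : Finset V) : Prop := ∀ O, O ⊆ M → f S ≤ f (S ∪ O)

theorem HH.inter {f : Finset V → ℤ} (hf : Sub f) {S1 S2 M : Finset V} (h1 : HH f S1 M) (h2 : HH f S2 M) :
    HH f (S1 ∩ S2) M := by
  intro O hO
  have a := hf ((S1 ∩ S2) ∪ O) S1
  have e1 : ((S1 ∩ S2) ∪ O) ∪ S1 = S1 ∪ O := by
    ext x; simp only [mem_union, mem_inter]; tauto
  have b := hf (((S1 ∩ S2) ∪ O) ∩ S1) S2
  have e2 : (((S1 ∩ S2) ∪ O) ∩ S1) ∪ S2 = S2 ∪ (O ∩ S1) := by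
    ext x; simp only [mem_union, mem_inter]; tauto
  have e3 : (((S1 ∩ S2) ∪ O) ∩ S1) ∩ S2 = S1 ∩ S2 := by
    ext x; simp only [mem_union, mem_inter]; tauto
  rw [e1] at a
  rw [e2, e3] at b
  have h3 := h1 O hO
  have h4 := h2 (O ∩ S1) (inter_subset_left.trans hO)
  linarith

/-- intersection of a family -/
def interF (I : Finset V) (S : V → Finset V) : Finset V := univ.filter (fun b => ∀ i ∈ I, b ∈ S i)

theorem mem_interF {I : Finset V} {S : V → Finset V} {b : V} : b ∈ interF I S ↔ ∀ i ∈ I, b ∈ S i := by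
  simp [interF]

theorem HH.interF {f : Finset V → ℤ} (hf : Sub f) {S : V → Finset V} {M : Finset V} (I : Finset V)
    (h : ∀ i ∈ I, HH f (S i) M) : HH f (interF I S) M := by
  induction I using Finset.induction_on with
  | empty =>
    intro O _
    have e : Vale.Agent.P038.H518.interF (∅ : Finset V) S = univ := by
      ext x; simp [mem_interF]
    rw [e, Finset.union_eq_left.2 (subset_univ O)]
  | insert i I hi ih =>
    have e : Vale.Agent.P038.H518.interF (insert i I) S = S i ∩ Vale.Agent.P038.H518.interF I S := by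
      ext x; simp [mem_interF]
    rw [e]
    exact HH.inter hf (h i (mem_insert_self i I)) (ih fun j hj => h j (mem_insert_of_mem hj))

theorem ex_max {f : Finset V → ℤ} (hf : Sub f) {L M : Finset V} (hLM : L ⊆ M) :
    ∃ T, L ⊆ T ∧ T ⊆ M ∧ (∀ S, L ⊆ S → S ⊆ M → f T ≤ f S) ∧ ∀ S, L ⊆ S → S ⊆ M → f S ≤ f T → S ⊆ T := by
  classical
  have hmem : ∀ S, S ∈ M.powerset.filter (fun S => L ⊆ S) ↔ S ⊆ M ∧ L ⊆ S := by
    intro S; simp
  obtain ⟨T0, hT0, hmin⟩ := exists_min_image (M.powerset.filter (fun S => L ⊆ S)) f ⟨M, (hmem M).2 ⟨Subset.rfl, hLM⟩⟩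
  obtain ⟨T, hT, hmax⟩ := exists_max_image ((M.powerset.filter (fun S => L ⊆ S)).filter (fun S => f S ≤ f T0)) Finset.card
    ⟨T0, mem_filter.2 ⟨hT0, le_rfl⟩⟩
  rw [mem_filter] at hT
  obtain ⟨hT1, hT2⟩ := hT
  rw [hmem] at hT1
  have hle : ∀ S, L ⊆ S → S ⊆ M → f T ≤ f S := fun S h1 h2 => hT2.trans (hmin S ((hmem S).2 ⟨h2, h1⟩))
  refine ⟨T, hT1.2, hT1.1, hle, ?_⟩
  intro S h1 h2 h3
  have h4 : f (S ∩ T) ≥ f T := hle _ (subset_inter h1 hT1.2) (inter_subset_left.trans h2)
  have h5 := hf S T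
  have h6 : f (S ∪ T) ≤ f T0 := by linarith
  have h7 := hmax (S ∪ T) (mem_filter.2 ⟨(hmem _).2 ⟨union_subset h2 hT1.1, h1.trans subset_union_left⟩, h6⟩)
  have h8 := eq_of_subset_of_card_le (subset_union_right : T ⊆ S ∪ T) h7
  rw [h8]
  exact subset_union_left

end sub

section nbd

variable {V : Type*} [Fintype V] [DecidableEq V] (N : V → Finset V)

/-- neighbourhood of a set -/
def nb (X : Finset V) : Finset V := X.biUnion N

theorem mem_nb {X : Finset V} {y : V} : y ∈ nb N X ↔ ∃ x ∈ X, y ∈ N x := by simp [nb]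

theorem nb_mono {X Y : Finset V} (h : X ⊆ Y) : nb N X ⊆ nb N Y := by
  intro y hy
  obtain ⟨x, hx, hy⟩ := (mem_nb N).1 hy
  exact (mem_nb N).2 ⟨x, h hx, hy⟩

theorem nb_union (X Y : Finset V) : nb N (X ∪ Y) = nb N X ∪ nb N Y := by
  ext y; simp only [mem_nb, mem_union]
  constructor
  · rintro ⟨x, hx | hx, hy⟩
    · exact Or.inl ⟨x, hx, hy⟩
    · exact Or.inr ⟨x, hx, hy⟩
  · rintro (⟨x, hx, hy⟩ | ⟨x, hx, hy⟩)
    · exact ⟨x, Or.inl hx, hy⟩
    · exact ⟨x, Or.inr hx, hy⟩

/-- `k |N[X]| - m |X|` -/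
def ck (k m : ℤ) (X : Finset V) : ℤ := k * (nb N X).card - m * X.card

/-- `|N[X]| - |X|` -/
def cc (X : Finset V) : ℤ := (nb N X).card - X.card

theorem sub_ck {k : ℤ} (hk : 0 ≤ k) (m : ℤ) : Sub (ck N k m) := by
  intro X Y
  have h1 := card_union_add_card_inter (nb N X) (nb N Y)
  have h2 := card_union_add_card_inter X Y
  have h3 : (nb N (X ∩ Y)).card ≤ (nb N X ∩ nb N Y).card :=
    card_le_card (subset_inter (nb_mono N inter_subset_left) (nb_mono N inter_subset_right))
  have h4 : ((nb N (X ∪ Y)).card : ℤ) + (nb N (X ∩ Y)).card ≤ (nb N X).card + (nb N Y).card := by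
    rw [nb_union]
    exact_mod_cast (by omega : (nb N X ∪ nb N Y).card + (nb N (X ∩ Y)).card ≤ (nb N X).card + (nb N Y).card)
  have h5 : ((X ∪ Y).card : ℤ) + (X ∩ Y).card = X.card + Y.card := by exact_mod_cast h2
  have h6 := mul_le_mul_of_nonneg_left h4 hk
  unfold ck
  have h7 : m * (((X ∪ Y).card : ℤ) + (X ∩ Y).card) = m * (X.card + Y.card) := by rw [h5]
  linarith [h6, h7]

theorem cc_eq (X : Finset V) : cc N X = ck N 1 1 X := by simp [cc, ck]

theorem sub_cc : Sub (cc N) := by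
  have h := sub_ck N (k := 1) (by norm_num) 1
  intro X Y
  simp only [cc_eq]
  exact h X Y

end nbd

section count

variable {V : Type*} [Fintype V] [DecidableEq V]

theorem dbl (r : V → V → Prop) [∀ a b, Decidable (r a b)] :
    ∑ a, ((univ.filter (fun b => r a b)).card : ℤ) = ∑ b, ((univ.filter (fun a => r a b)).card : ℤ) := by
  simp only [card_filter]
  push_cast
  exact sum_comm

theorem cmp (S : V → Finset V) :
    ∑ b, ((S b).card : ℤ) + ∑ a, ((univ.filter (fun b => a ∉ S b)).card : ℤ) = (Fintype.card V : ℤ) * Fintype.card V := by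
  rw [dbl (fun a b => a ∉ S b), ← sum_add_distrib]
  have : ∀ b : V, ((S b).card : ℤ) + ((univ.filter (fun a => a ∉ S b)).card : ℤ) = Fintype.card V := by
    intro b
    have h := Finset.card_compl (S b)
    have e : univ.filter (fun a => a ∉ S b) = (S b)ᶜ := by ext x; simp
    rw [e, h]
    have := card_le_univ (S b)
    omega
  rw [sum_congr rfl fun b _ => this b]
  simp

end count

end Vale.Agent.P038.H518
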