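import Vale.Agent.P038.H518.Core

/-!
# P038 / H518 / GG : simultaneous deletion (helper294's theorem, note 20944), all weights one (helper518)

* **`gg`** : in an arc-minimal counterexample the boundary of `N[X]` is smaller than the boundary of `X` (`N[X] ≠ X`).
-/

set_option autoImplicit false
set_option linter.unusedSectionVars false

namespace Vale.Agent.P038.H518

open Finset

variable {V : Type*} [Fintype V] [DecidableEq V]

/-- oriented graph -/
def Ori (D : V → Finset V) : Prop := (∀ v, v ∉ D v) ∧ ∀ u v, v ∈ D u → u ∉ D v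

/-- second out-neighbours -/
def D2 (D : V → Finset V) (v : V) : Finset V := ((D v).biUnion D) \ D v

theorem mem_D2 {D : V → Finset V} {v w : V} : w ∈ D2 D v ↔ (∃ u ∈ D v, w ∈ D u) ∧ w ∉ D v := by
  simp [D2, mem_sdiff]

/-- counterexample -/
def CE (D : V → Finset V) : Prop := ∀ v, (D2 D v).card < (D v).card

/-- number of arcs -/
def arcs (D : V → Finset V) : ℕ := ∑ v, (D v).card

/-- closed out-neighbourhoods -/
def Nc (D : V → Finset V) (v : V) : Finset V := insert v (D v)

theorem mem_Nc {D : V → Finset V} {v w : V} : w ∈ Nc D v ↔ w = v ∨ w ∈ D v := by simp [Nc]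

theorem sub_nb (D : V → Finset V) (X : Finset V) : X ⊆ nb (Nc D) X := by
  intro x hx
  exact (mem_nb (Nc D)).2 ⟨x, hx, by simp [Nc]⟩

/-- the deletion -/
def Dm (D : V → Finset V) (X T : Finset V) (v : V) : Finset V := if v ∈ X then D v ∩ (X ∪ T) else D v

theorem Dm_sub (D : V → Finset V) (X T : Finset V) (v : V) : Dm D X T v ⊆ D v := by
  unfold Dm
  split_ifs
  · exact inter_subset_left
  · exact Subset.rfl

theorem gg {D : V → Finset V} (hO : Ori D) (hC : CE D) (hmin : ∀ D' : V → Finset V, Ori D' → CE D' → arcs D ≤ arcs D')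
    (X : Finset V) (hX : nb (Nc D) X ≠ X) : cc (Nc D) (nb (Nc D) X) < cc (Nc D) X := by
  classical
  by_contra hcon
  rw [not_lt] at hcon
  obtain ⟨n, hn⟩ : ∃ n, n = nb (Nc D) := ⟨_, rfl⟩
  have mn : ∀ {Z : Finset V} {y : V}, y ∈ n Z ↔ ∃ x ∈ Z, y ∈ Nc D x := by intro Z y; rw [hn]; exact mem_nb (Nc D)
  have sn : ∀ Z, Z ⊆ n Z := by intro Z; rw [hn]; exact sub_nb D Z
  have hmono : ∀ {Z W : Finset V}, Z ⊆ W → n Z ⊆ n W := by intro Z W h; rw [hn]; exact nb_mono _ h
  have hun : ∀ Z W, n (Z ∪ W) = n Z ∪ n W := by intro Z W; rw [hn]; exact nb_union _ Z W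
  rw [← hn] at hX
  have hcon' : ((n X).card : ℤ) - X.card ≤ ((n (n X)).card : ℤ) - (n X).card := by
    have := hcon
    simp only [cc, ← hn] at this
    exact this
  obtain ⟨L, hL⟩ : ∃ L, L = n X \ X := ⟨_, rfl⟩
  have hLn : L.Nonempty := by
    rw [nonempty_iff_ne_empty]
    intro h
    rw [hL, sdiff_eq_empty_iff_subset] at h
    exact hX (Subset.antisymm h (sn X))
  have hLX : ∀ y ∈ L, y ∉ X := by intro y hy; rw [hL, mem_sdiff] at hy; exact hy.2
  have hLn' : ∀ y ∈ L, y ∈ n X := by intro y hy; rw [hL, mem_sdiff] at hy; exact hy.1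
  obtain ⟨d, hd⟩ : ∃ d : Finset V → ℤ, d = fun T => ((n T \ X).card : ℤ) - 2 * T.card := ⟨_, rfl⟩
  have hd0 : d ∅ = 0 := by
    rw [hd]; simp only [hn, nb, biUnion_empty]; simp
  have hdL : 0 ≤ d L := by
    have h1 : L ∪ (n (n X) \ n X) ⊆ n L \ X := by
      intro y hy
      rw [mem_sdiff]
      rcases mem_union.1 hy with h | h
      · exact ⟨sn L h, hLX y h⟩
      · rw [mem_sdiff] at h
        obtain ⟨u, hu, hyu⟩ := mn.1 h.1
        have huX : u ∉ X := fun h' => h.2 (mn.2 ⟨u, h', hyu⟩)
        exact ⟨mn.2 ⟨u, by rw [hL, mem_sdiff]; exact ⟨hu, huX⟩, hyu⟩, fun h' => h.2 (sn X h')⟩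
    have h2 : Disjoint L (n (n X) \ n X) := by
      rw [disjoint_left]
      intro y h1 h2
      rw [mem_sdiff] at h2
      exact h2.2 (hLn' y h1)
    have h3 := card_le_card h1
    rw [card_union_of_disjoint h2] at h3
    have h4 : (n X).card = L.card + X.card := by
      rw [hL, card_sdiff_of_subset (sn X)]
      have := card_le_card (sn X)
      omega
    have h5 : (n (n X) \ n X).card = (n (n X)).card - (n X).card := card_sdiff_of_subset (sn _)
    have h6 := card_le_card (sn (n X))
    rw [hd]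
    simp only
    omega
  obtain ⟨T, hT, hTmin⟩ := exists_min_image L.ssubsets d ⟨∅, by rw [mem_ssubsets]; exact hLn.empty_ssubset⟩
  rw [mem_ssubsets] at hT
  have hTL : T ⊆ L := hT.1
  have hTX : ∀ y ∈ T, y ∉ X := fun y hy => hLX y (hTL hy)
  have key : ∀ D' : Finset V, D' ⊆ L \ T → 2 * D'.card ≤ (n D' \ (n T ∪ X)).card := by
    intro D' hD'
    have h1 : T ∪ D' ⊆ L := union_subset hTL (hD'.trans sdiff_subset)
    have h2 : d T ≤ d (T ∪ D') := by
      by_cases h : T ∪ D' = L
      · rw [h]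
        have := hTmin ∅ (by rw [mem_ssubsets]; exact hLn.empty_ssubset)
        linarith
      · exact hTmin _ (by rw [mem_ssubsets]; exact HasSubset.Subset.ssubset_of_ne h1 h)
    have h3 : Disjoint T D' := by
      rw [disjoint_left]
      intro y hy1 hy2
      exact (mem_sdiff.1 (hD' hy2)).2 hy1
    have h4 : n (T ∪ D') \ X = (n T \ X) ∪ (n D' \ (n T ∪ X)) := by
      rw [hun]
      ext y; simp only [mem_sdiff, mem_union]; tauto
    have h5 : Disjoint (n T \ X) (n D' \ (n T ∪ X)) := by
      rw [disjoint_left]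
      intro y hy1 hy2
      simp only [mem_sdiff, mem_union] at hy1 hy2
      tauto
    rw [hd] at h2
    simp only at h2
    rw [h4, card_union_of_disjoint h5, card_union_of_disjoint h3] at h2
    push_cast at h2
    omega
  -- the smaller graph
  have hOm : Ori (Dm D X T) :=
    ⟨fun v hv => hO.1 v (Dm_sub D X T v hv), fun u v hv hu => hO.2 u v (Dm_sub D X T u hv) (Dm_sub D X T v hu)⟩
  have hCm : CE (Dm D X T) := by
    intro v
    by_cases hv : v ∈ X
    · have e : Dm D X T v = D v ∩ (X ∪ T) := by simp [Dm, hv]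
      obtain ⟨Dy, hDy⟩ : ∃ Dy, Dy = D v \ (X ∪ T) := ⟨_, rfl⟩
      obtain ⟨E, hE⟩ : ∃ E, E = n Dy \ (n T ∪ X) := ⟨_, rfl⟩
      have k0 : Dy ⊆ L \ T := by
        intro y hy
        rw [hDy, mem_sdiff, mem_union, not_or] at hy
        rw [mem_sdiff, hL, mem_sdiff]
        exact ⟨⟨mn.2 ⟨v, hv, mem_Nc.2 (Or.inr hy.1)⟩, hy.2.1⟩, hy.2.2⟩
      have k1 := key Dy k0
      rw [← hE] at k1
      have k2 : E ⊆ D2 D v ∪ Dy := by
        intro z hz
        rw [hE, mem_sdiff, mem_union, not_or] at hz
        obtain ⟨u, hu, hzu⟩ := mn.1 hz.1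
        rw [mem_union]
        rcases mem_Nc.1 hzu with h | h
        · right; rw [h]; exact hu
        · by_cases hzv : z ∈ D v
          · right
            rw [hDy, mem_sdiff, mem_union, not_or]
            exact ⟨hzv, hz.2.2, fun h' => hz.2.1 (sn T h')⟩
          · left
            rw [mem_D2]
            refine ⟨⟨u, ?_, h⟩, hzv⟩
            rw [hDy, mem_sdiff] at hu
            exact hu.1
      have k3 : D2 (Dm D X T) v ⊆ (D2 D v ∪ Dy) \ E := by
        intro w hw
        rw [mem_D2, e] at hw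
        obtain ⟨⟨u, hu, hwu⟩, hwR⟩ := hw
        rw [mem_inter, mem_union] at hu
        have hwu' := Dm_sub D X T u hwu
        rw [mem_sdiff, mem_union]
        refine ⟨?_, ?_⟩
        · by_cases hwv : w ∈ D v
          · right
            rw [hDy, mem_sdiff]
            exact ⟨hwv, fun h' => hwR (mem_inter.2 ⟨hwv, h'⟩)⟩
          · left
            rw [mem_D2]
            exact ⟨⟨u, hu.1, hwu'⟩, hwv⟩
        · intro hwE
          rw [hE, mem_sdiff, mem_union, not_or] at hwE
          rcases hu.2 with h | h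
          · have e' : Dm D X T u = D u ∩ (X ∪ T) := by simp [Dm, h]
            rw [e', mem_inter, mem_union] at hwu
            rcases hwu.2 with h' | h'
            · exact hwE.2.2 h'
            · exact hwE.2.1 (sn T h')
          · exact hwE.2.1 (mn.2 ⟨u, h, mem_Nc.2 (Or.inr hwu')⟩)
      have k4 := card_le_card k3
      rw [card_sdiff_of_subset k2] at k4
      have k5 := card_union_le (D2 D v) Dy
      have k6 : (D v ∩ (X ∪ T)).card + Dy.card = (D v).card := by
        rw [hDy]; exact card_inter_add_card_sdiff (D v) (X ∪ T)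
      have k7 := hC v
      have k8 := card_le_card k2
      rw [e]
      omega
    · have e : Dm D X T v = D v := by simp [Dm, hv]
      have h1 : D2 (Dm D X T) v ⊆ D2 D v := by
        intro w hw
        rw [mem_D2, e] at hw
        obtain ⟨⟨u, hu, hwu⟩, hwR⟩ := hw
        rw [mem_D2]
        exact ⟨⟨u, hu, Dm_sub D X T u hwu⟩, hwR⟩
      rw [e]
      exact (card_le_card h1).trans_lt (hC v)
  have h1 := hmin _ hOm hCm
  -- strictly fewer arcs
  obtain ⟨l, hl⟩ : ∃ l, l ∈ L ∧ l ∉ T := by
    by_contra h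
    push Not at h
    exact hT.2 h
  obtain ⟨x, hx, hlx⟩ := mn.1 (hLn' l hl.1)
  have hlx' : l ∈ D x := by
    rcases mem_Nc.1 hlx with h | h
    · exact absurd (h ▸ hx) (hLX l hl.1)
    · exact h
  have h2 : arcs (Dm D X T) < arcs D := by
    refine sum_lt_sum (fun v _ => card_le_card (Dm_sub D X T v)) ⟨x, mem_univ x, card_lt_card ?_⟩
    refine ⟨Dm_sub D X T x, fun h => ?_⟩
    have := h hlx'
    simp only [Dm, hx, if_true, mem_inter, mem_union] at this
    rcases this.2 with h' | h'
    · exact hLX l hl.1 h'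
    · exact hl.2 h'
  omega

end Vale.Agent.P038.H518
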