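import Vale.Agent.P038.H518.Core

/-!
# P038 / H518 / Main : inner cost of the intersections at most outer cost (helper518)
-/

set_option autoImplicit false
set_option linter.unusedSectionVars false

namespace Vale.Agent.P038.H518

open Finset

variable {V : Type*} [Fintype V] [DecidableEq V] (N : V → Finset V)

/-- closed in-neighbourhood -/
def inN (z : V) : Finset V := univ.filter (fun s => z ∈ N s)

theorem mem_inN {z s : V} : s ∈ inN N z ↔ z ∈ N s := by simp [inN]

/-- intersection over the closed in-neighbourhood -/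
def Yf (P : V → Finset V) (z : V) : Finset V := interF (inN N z) P

theorem mem_Yf {P : V → Finset V} {z b : V} : b ∈ Yf N P z ↔ ∀ s, z ∈ N s → b ∈ P s := by
  simp [Yf, mem_interF, mem_inN]

/-- largest row -/
def Qt (T : V → Finset V) (a : V) : Finset V := univ.filter (fun b => a ∉ T b ∨ b = a)

/-- largest column -/
def Mx (P : V → Finset V) (x : V) : Finset V := univ.filter (fun a => x ∉ P a ∨ a = x)

/-- `y` with `z ∉ N[Z_y]` -/
def Rz (T : V → Finset V) (z : V) : Finset V := univ.filter (fun y => z ∉ nb N (Yf N T y))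

/-- outer pair -/
structure Outer (P T : V → Finset V) : Prop where
  hP : ∀ a, N a ⊆ P a
  hT : ∀ b, N b ⊆ T b
  ort : ∀ a b, b ∈ P a → a ∈ T b → b = a

/-- inner pair -/
structure Inner (Y Z : V → Finset V) : Prop where
  hY : ∀ a, a ∈ Y a
  hZ : ∀ b, b ∈ Z b
  ort : ∀ a b, b ∈ nb N (Y a) → a ∈ nb N (Z b) → b = a

variable {N} (hr : ∀ x, x ∈ N x) (ha : ∀ x y, y ∈ N x → x ∈ N y → y = x) {P T : V → Finset V} (o : Outer N P T)

include hr ha o

theorem inner_of_outer : Inner N (Yf N P) (Yf N T) := by
  refine ⟨fun a => (mem_Yf N).2 fun s hs => o.hP s hs, fun a => (mem_Yf N).2 fun s hs => o.hT s hs, ?_⟩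
  intro a b h1 h2
  obtain ⟨u, hu, hub⟩ := (mem_nb N).1 h1
  obtain ⟨z, hz, hza⟩ := (mem_nb N).1 h2
  rw [mem_Yf] at hu hz
  have h3 : u ∈ P z := hu z hza
  have h4 : z ∈ T u := hz u hub
  have h5 : u = z := o.ort z u h3 h4
  subst h5
  -- u → a, u → b
  have h6 : u ∈ P a := hu a (hr a)
  have h7 : u ∈ T b := hz b (hr b)
  have h8 : a ∈ T u := o.hT u hza
  have h9 : u = a := o.ort a u h6 h8
  subst h9
  have h10 : b ∈ P u := o.hP u hub
  exact o.ort u b h10 h7

theorem notin_T {s z : V} (h : z ∈ N s) (hs : s ≠ z) : s ∉ T z := fun h1 => hs (o.ort s z (o.hP s h) h1).symm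

/-- `Y_z` lies in the intersection of the largest rows -/
theorem Yf_sub (z : V) : Yf N P z ⊆ Yf N (Qt T) z := by
  intro b hb
  rw [mem_Yf] at hb ⊢
  intro s hs
  simp only [Qt, mem_filter, mem_univ, true_and]
  by_cases h : s ∈ T b
  · exact Or.inr (o.ort s b (hb s hs) h)
  · exact Or.inl h

theorem P_sub (a : V) : P a ⊆ Qt T a := by
  intro b hb
  simp only [Qt, mem_filter, mem_univ, true_and]
  by_cases h : a ∈ T b
  · exact Or.inr (o.ort a b hb h)
  · exact Or.inl h

theorem nbQI_sub (z : V) : nb N (Yf N (Qt T) z) ⊆ insert z (Rz N T z) := by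
  intro y hy
  obtain ⟨b, hb, hyb⟩ := (mem_nb N).1 hy
  rw [mem_Yf] at hb
  rw [mem_insert]
  by_cases hyz : y = z
  · exact Or.inl hyz
  right
  simp only [Rz, mem_filter, mem_univ, true_and]
  intro h
  obtain ⟨s, hs, hzs⟩ := (mem_nb N).1 h
  rw [mem_Yf] at hs
  -- s ∈ T x for all x with y ∈ N x
  by_cases hbz : b = z
  · subst hbz
    by_cases hsz : s = b
    · subst hsz
      -- y ∈ N s, s ∈ T y
      have h1 : s ∈ T y := hs y (hr y)
      exact hyz (o.ort s y (o.hP s hyb) h1)
    · exact notin_T hr ha o hzs hsz (hs b hyb)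
  · have h1 := hb s hzs
    simp only [Qt, mem_filter, mem_univ, true_and] at h1
    rcases h1 with h1 | h1
    · exact h1 (hs b hyb)
    · subst h1
      -- b ∈ Yf Qt z with z ∈ N b, b ≠ z
      have h2 := hb z (hr z)
      simp only [Qt, mem_filter, mem_univ, true_and] at h2
      rcases h2 with h2 | h2
      · exact h2 (o.hT b hzs)
      · exact hbz h2

/-- the intersection of the largest rows -/
theorem card_QI (z : V) : ((Yf N (Qt T) z).card : ℤ) = (univ.filter (fun b => z ∉ nb N (T b))).card + 1 := by
  have e : Yf N (Qt T) z = insert z (univ.filter (fun b => z ∉ nb N (T b))) := by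
    ext b
    rw [mem_Yf, mem_insert]
    simp only [Qt, mem_filter, mem_univ, true_and]
    constructor
    · intro h
      by_cases hbz : b = z
      · exact Or.inl hbz
      right
      intro h1
      obtain ⟨s, hs, hzs⟩ := (mem_nb N).1 h1
      rcases h s hzs with h2 | h2
      · exact h2 hs
      · subst h2
        rcases h z (hr z) with h3 | h3
        · exact h3 (o.hT b hzs)
        · exact hbz h3
    · rintro (h | h) s hs
      · subst h
        by_cases hsb : s = b
        · exact Or.inr hsb.symm
        · exact Or.inl (notin_T hr ha o hs hsb)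
      · left
        intro h1
        exact h ((mem_nb N).2 ⟨s, h1, hs⟩)
  rw [e, card_insert_of_notMem]
  · push_cast; ring
  · simp only [mem_filter, mem_univ, true_and, not_not]
    exact (mem_nb N).2 ⟨z, o.hT z (hr z), hr z⟩

theorem card_insR (z : V) : ((insert z (Rz N T z)).card : ℤ) = (Rz N T z).card + 1 := by
  rw [card_insert_of_notMem]
  · push_cast; ring
  · simp only [Rz, mem_filter, mem_univ, true_and, not_not]
    exact (mem_nb N).2 ⟨z, (mem_Yf N).2 fun s hs => o.hT s hs, hr z⟩

theorem card_Qt (a : V) : ((Qt T a).card : ℤ) = (univ.filter (fun b => a ∉ T b)).card + 1 := by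
  have e : Qt T a = insert a (univ.filter (fun b => a ∉ T b)) := by
    ext b
    rw [mem_insert]
    simp only [Qt, mem_filter, mem_univ, true_and]
    tauto
  rw [e, card_insert_of_notMem]
  · push_cast; ring
  · simp only [mem_filter, mem_univ, true_and, not_not]
    exact o.hT a (hr a)

theorem card_nbQt (a : V) : ((nb N (Qt T a)).card : ℤ) = (univ.filter (fun y => a ∉ Yf N T y)).card + 1 := by
  have e : nb N (Qt T a) = insert a (univ.filter (fun y => a ∉ Yf N T y)) := by
    ext y
    rw [mem_insert, mem_nb]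
    simp only [mem_filter, mem_univ, true_and, mem_Yf, not_forall]
    constructor
    · rintro ⟨b, hb, hyb⟩
      simp only [Qt, mem_filter, mem_univ, true_and] at hb
      by_cases hya : y = a
      · exact Or.inl hya
      right
      rcases hb with hb | hb
      · exact ⟨b, hyb, hb⟩
      · subst hb
        refine ⟨y, hr y, fun h => hya (o.ort b y (o.hP b hyb) h)⟩
    · rintro (h | ⟨b, hyb, hb⟩)
      · subst h
        exact ⟨y, by simp [Qt], hr y⟩
      · exact ⟨b, by simp [Qt, hb], hyb⟩
  rw [e, card_insert_of_notMem]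
  · push_cast; ring
  · simp only [mem_filter, mem_univ, true_and, not_not]
    exact (mem_Yf N).2 fun s hs => o.hT s hs

end Vale.Agent.P038.H518
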