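import Vale.Agent.P038.H518.Main

/-!
# P038 / H518 / Par : the parameter argument (helper518)

* **`main_ineq`** : if `(P, T)` is outer and row / column optimal then the inner pair costs at most as much.
-/

set_option autoImplicit false
set_option linter.unusedSectionVars false

namespace Vale.Agent.P038.H518

open Finset

variable {V : Type*} [Fintype V] [DecidableEq V] {N : V → Finset V}

theorem card_sdiff_int {A B : Finset V} (h : A ⊆ B) : ((B \ A).card : ℤ) = B.card - A.card := by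
  rw [card_sdiff_of_subset h]
  have := card_le_card h
  omega

theorem tele_up (g : ℕ → ℤ) (b : ℕ → ℤ) (h : ∀ k, g (k + 1) ≤ g k + b k) (m : ℕ) : g m ≤ g 0 + ∑ j ∈ range m, b j := by
  induction m with
  | zero => simp
  | succ m ih =>
    rw [sum_range_succ]
    linarith [h m]

theorem tele_dn (g : ℕ → ℤ) (b : ℕ → ℤ) (h : ∀ k, g k + b (k + 1) ≤ g (k + 1)) (m : ℕ) :
    g 0 + ∑ j ∈ range m, b (j + 1) ≤ g m := by
  induction m with
  | zero => simp
  | succ m ih =>
    rw [sum_range_succ]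
    linarith [h m]

variable (hr : ∀ x, x ∈ N x) (ha : ∀ x y, y ∈ N x → x ∈ N y → y = x) {P T : V → Finset V} (o : Outer N P T)
  (hoP : ∀ a, HH (cc N) (P a) (Qt T a)) (hoT : ∀ b, HH (cc N) (T b) (Mx P b))

include hr ha o hoP hoT

/-- one level of the parameter -/
theorem level (U W : V → Finset V) (hW : ∀ a, P a ⊆ W a) (hUW : ∀ z s, z ∈ N s → U z ⊆ W s) :
    ∑ a, ((nb N (Qt T a) \ nb N (W a)).card : ℤ) ≤ ∑ z, ((insert z (Rz N T z) \ nb N (U z)).card : ℤ) := by
  classical
  have e1 : ∀ a, nb N (Qt T a) \ nb N (W a) = univ.filter (fun y => y ∈ nb N (Qt T a) ∧ y ∉ nb N (W a)) := by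
    intro a; ext y; simp
  have h1 : ∑ a, ((nb N (Qt T a) \ nb N (W a)).card : ℤ) =
      ∑ y, ((univ.filter (fun a => y ∈ nb N (Qt T a) ∧ y ∉ nb N (W a))).card : ℤ) := by
    simp only [e1]
    exact dbl _
  have h2 : ∑ y, ((univ.filter (fun z => y ∈ Rz N T z ∧ y ∉ nb N (U z))).card : ℤ) ≤
      ∑ z, ((insert z (Rz N T z) \ nb N (U z)).card : ℤ) := by
    rw [← dbl (fun z y => y ∈ Rz N T z ∧ y ∉ nb N (U z))]
    refine sum_le_sum fun z _ => ?_
    exact_mod_cast card_le_card (by
      intro y hy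
      simp only [mem_filter, mem_univ, true_and] at hy
      rw [mem_sdiff]
      exact ⟨mem_insert_of_mem hy.1, hy.2⟩)
  rw [h1]
  refine le_trans (sum_le_sum fun y _ => ?_) h2
  -- column `y`
  obtain ⟨O, hO⟩ : ∃ O, O = univ.filter (fun a => y ∈ nb N (Qt T a) ∧ y ∉ nb N (W a)) := ⟨_, rfl⟩
  rw [← hO]
  have hOm : ∀ a, a ∈ O ↔ y ∈ nb N (Qt T a) ∧ y ∉ nb N (W a) := by intro a; rw [hO]; simp
  have hcol : HH (cc N) (Yf N T y) (interF (inN N y) (Mx P)) := by
    refine HH.interF (sub_cc N) _ fun x hx => ?_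
    intro O' hO'
    refine hoT x O' (hO'.trans ?_)
    intro b hb
    exact mem_interF.1 hb x hx
  have hOM : O ⊆ interF (inN N y) (Mx P) := by
    intro a haO
    rw [mem_interF]
    intro x hx
    rw [mem_inN] at hx
    simp only [Mx, mem_filter, mem_univ, true_and]
    left
    intro h
    exact ((hOm a).1 haO).2 ((mem_nb N).2 ⟨x, hW a h, hx⟩)
  have hdis : Disjoint (Yf N T y) O := by
    rw [disjoint_left]
    intro a h1 h2
    rw [hOm] at h2
    obtain ⟨b, hb, hyb⟩ := (mem_nb N).1 h2.1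
    simp only [Qt, mem_filter, mem_univ, true_and] at hb
    rcases hb with hb | hb
    · exact hb ((mem_Yf N).1 h1 b hyb)
    · subst hb
      exact h2.2 ((mem_nb N).2 ⟨b, hW b (o.hP b (hr b)), hyb⟩)
  have h3 := hcol O hOM
  unfold cc at h3
  rw [card_union_of_disjoint hdis] at h3
  push_cast at h3
  have h4 : nb N (Yf N T y) ⊆ nb N (Yf N T y ∪ O) := nb_mono N subset_union_left
  have h5 := card_sdiff_int h4
  have h6 : nb N (Yf N T y ∪ O) \ nb N (Yf N T y) ⊆ univ.filter (fun z => y ∈ Rz N T z ∧ y ∉ nb N (U z)) := by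
    intro z hz
    rw [mem_sdiff] at hz
    simp only [mem_filter, mem_univ, true_and]
    obtain ⟨s, hs, hzs⟩ := (mem_nb N).1 hz.1
    refine ⟨?_, ?_⟩
    · simp only [Rz, mem_filter, mem_univ, true_and]
      exact hz.2
    · have hsO : s ∈ O := by
        rcases mem_union.1 hs with h | h
        · exact absurd ((mem_nb N).2 ⟨s, h, hzs⟩) hz.2
        · exact h
      intro h
      exact ((hOm s).1 hsO).2 (nb_mono N (hUW z s hzs) h)
  have h7 : ((nb N (Yf N T y ∪ O) \ nb N (Yf N T y)).card : ℤ) ≤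
      ((univ.filter (fun z => y ∈ Rz N T z ∧ y ∉ nb N (U z))).card : ℤ) := by exact_mod_cast card_le_card h6
  linarith

/-- the inequality up to `n²`, every step number `m` -/
theorem main_m (m : ℕ) :
    (m : ℤ) * ∑ a, (((nb N (Qt T a)).card : ℤ) - (Qt T a).card - cc N (P a)) ≤
      m * ∑ z, (((insert z (Rz N T z)).card : ℤ) - (Yf N (Qt T) z).card - cc N (Yf N P z)) +
        (Fintype.card V : ℤ) * Fintype.card V := by
  classical
  have hsub : ∀ k : ℕ, Sub (ck N k m) := fun k => sub_ck N (by positivity) m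
  -- largest minimisers of the rows
  have hW := fun (k : ℕ) (a : V) => ex_max (hsub k) (P_sub hr ha o a)
  choose W hW1 hW2 hW3 hW4 using hW
  have hU := fun (k : ℕ) (z : V) => ex_max (hsub k) (Yf_sub hr ha o z)
  choose U hU1 hU2 hU3 _ using hU
  have hYP : ∀ z s, z ∈ N s → Yf N P z ⊆ P s := fun z s hs b hb => (mem_Yf N).1 hb s hs
  have hYQ : ∀ z s, z ∈ N s → Yf N (Qt T) z ⊆ Qt T s := fun z s hs b hb => (mem_Yf N).1 hb s hs
  have hUW : ∀ k z s, z ∈ N s → U k z ⊆ W k s := by
    intro k z s hs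
    have h1 := hsub k (U k z) (W k s)
    have h2 := hU3 k z (U k z ∩ W k s) (subset_inter (hU1 k z) ((hYP z s hs).trans (hW1 k s)))
      (inter_subset_left.trans (hU2 k z))
    have h3 := hW4 k s (U k z ∪ W k s) ((hW1 k s).trans subset_union_right)
      (union_subset ((hU2 k z).trans (hYQ z s hs)) (hW2 k s)) (by linarith)
    exact subset_union_left.trans h3
  have hlev := fun k => level hr ha o hoP hoT (U k) (W k) (hW1 k) (hUW k)
  -- rows, theta
  have hth : ∀ a, (m : ℤ) * (((nb N (Qt T a)).card : ℤ) - (Qt T a).card - cc N (P a)) ≤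
      ∑ j ∈ range m, ((nb N (Qt T a) \ nb N (W (j + 1) a)).card : ℤ) := by
    intro a
    have h1 := tele_dn (fun k => ck N k m (W k a)) (fun k => ((nb N (W k a)).card : ℤ)) (by
      intro k
      have h := hW3 k a (W (k + 1) a) (hW1 _ _) (hW2 _ _)
      simp only [ck] at h ⊢
      push_cast
      linarith) m
    have h2 := hW3 m a (P a) Subset.rfl (P_sub hr ha o a)
    have h3 : (m : ℤ) * (W 0 a).card ≤ m * (Qt T a).card := by
      exact_mod_cast Nat.mul_le_mul_left m (card_le_card (hW2 0 a))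
    have h4 : ∑ j ∈ range m, ((nb N (Qt T a) \ nb N (W (j + 1) a)).card : ℤ) =
        m * (nb N (Qt T a)).card - ∑ j ∈ range m, ((nb N (W (j + 1) a)).card : ℤ) := by
      rw [sum_congr rfl fun j _ => card_sdiff_int (nb_mono N (hW2 (j + 1) a)), sum_sub_distrib]
      simp
    rw [h4]
    simp only [ck, cc] at h1 h2 ⊢
    push_cast at h1
    linarith
  -- intersections, eta
  have het : ∀ z, ∑ j ∈ range m, ((insert z (Rz N T z) \ nb N (U j z)).card : ℤ) ≤
      (m : ℤ) * (((insert z (Rz N T z)).card : ℤ) - (Yf N (Qt T) z).card - cc N (Yf N P z)) := by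
    intro z
    have h1 := tele_up (fun k => ck N k m (U k z)) (fun k => ((nb N (U k z)).card : ℤ)) (by
      intro k
      have h := hU3 (k + 1) z (U k z) (hU1 _ _) (hU2 _ _)
      simp only [ck] at h ⊢
      push_cast at h ⊢
      linarith) m
    have h2 := hU3 0 z (Yf N (Qt T) z) (Yf_sub hr ha o z) Subset.rfl
    have hH : HH (cc N) (Yf N P z) (Yf N (Qt T) z) := by
      refine HH.interF (sub_cc N) _ fun s hs => ?_
      intro O' hO'
      rw [mem_inN] at hs
      exact hoP s O' (hO'.trans (hYQ z s hs))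
    have h3 := hH (U m z) (hU2 m z)
    rw [union_eq_right.2 (hU1 m z)] at h3
    have h3' := mul_le_mul_of_nonneg_left h3 (show (0 : ℤ) ≤ m by positivity)
    have h4 : ∑ j ∈ range m, ((insert z (Rz N T z) \ nb N (U j z)).card : ℤ) =
        m * (insert z (Rz N T z)).card - ∑ j ∈ range m, ((nb N (U j z)).card : ℤ) := by
      rw [sum_congr rfl fun j _ => card_sdiff_int ((nb_mono N (hU2 j z)).trans (nbQI_sub hr ha o z)), sum_sub_distrib]
      simp
    rw [h4]
    simp only [ck, cc] at h1 h2 h3' ⊢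
    push_cast at h1 h2
    linarith
  -- sums
  obtain ⟨B, hB⟩ : ∃ B : ℕ → ℤ, B = fun k => ∑ a, ((nb N (Qt T a) \ nb N (W k a)).card : ℤ) := ⟨_, rfl⟩
  have hB0 : ∀ k, 0 ≤ B k := by intro k; rw [hB]; positivity
  have hBn : ∀ k, B k ≤ (Fintype.card V : ℤ) * Fintype.card V := by
    intro k
    rw [hB]
    calc ∑ a, ((nb N (Qt T a) \ nb N (W k a)).card : ℤ) ≤ ∑ _a : V, (Fintype.card V : ℤ) :=
          sum_le_sum fun a _ => by exact_mod_cast card_le_univ _
      _ = _ := by simp
  have s1 : (m : ℤ) * ∑ a, (((nb N (Qt T a)).card : ℤ) - (Qt T a).card - cc N (P a)) ≤ ∑ j ∈ range m, B (j + 1) := by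
    rw [mul_sum, hB, sum_comm]
    exact sum_le_sum fun a _ => hth a
  have s2 : ∑ j ∈ range m, B j ≤
      (m : ℤ) * ∑ z, (((insert z (Rz N T z)).card : ℤ) - (Yf N (Qt T) z).card - cc N (Yf N P z)) := by
    rw [mul_sum]
    refine le_trans (sum_le_sum fun j _ => ?_) (le_trans (le_of_eq sum_comm) (sum_le_sum fun z _ => het z))
    rw [hB]
    exact hlev j
  have s3 : ∑ j ∈ range m, B (j + 1) + B 0 = ∑ j ∈ range m, B j + B m := by
    rw [← sum_range_succ' B m, sum_range_succ]
  have := hB0 0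
  have := hBn m
  linarith

theorem main_te :
    ∑ a, (((nb N (Qt T a)).card : ℤ) - (Qt T a).card - cc N (P a)) ≤
      ∑ z, (((insert z (Rz N T z)).card : ℤ) - (Yf N (Qt T) z).card - cc N (Yf N P z)) := by
  by_contra hcon
  push Not at hcon
  have h := main_m hr ha o hoP hoT (Fintype.card V * Fintype.card V + 1)
  obtain ⟨x, hx⟩ : ∃ x : ℤ, x = ∑ a, (((nb N (Qt T a)).card : ℤ) - (Qt T a).card - cc N (P a)) := ⟨_, rfl⟩
  obtain ⟨y, hy⟩ : ∃ y : ℤ, y = ∑ z, (((insert z (Rz N T z)).card : ℤ) - (Yf N (Qt T) z).card - cc N (Yf N P z)) := ⟨_, rfl⟩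
  rw [← hx, ← hy] at h hcon
  push_cast at h
  have hn : (0 : ℤ) ≤ (Fintype.card V : ℤ) * Fintype.card V := by positivity
  nlinarith

/-- **the inner pair costs at most as much as the outer one** -/
theorem main_ineq : ∑ a, cc N (Yf N P a) + ∑ b, cc N (Yf N T b) ≤ ∑ a, cc N (P a) + ∑ b, cc N (T b) := by
  have h := main_te hr ha o hoP hoT
  simp only [card_QI hr ha o, card_insR hr ha o, card_Qt hr ha o, card_nbQt hr ha o] at h
  have c1 := cmp T
  have c2 := cmp (fun b => nb N (T b))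
  have c3 := cmp (fun b => Yf N T b)
  have c4 := cmp (fun b => nb N (Yf N T b))
  have e4 : ∀ a, univ.filter (fun b => a ∉ nb N (Yf N T b)) = Rz N T a := fun a => rfl
  simp only [e4] at c4
  have d1 : ∑ b, cc N (T b) = ∑ b, ((nb N (T b)).card : ℤ) - ∑ b, ((T b).card : ℤ) := by
    simp only [cc, sum_sub_distrib]
  have d2 : ∑ b, cc N (Yf N T b) = ∑ b, ((nb N (Yf N T b)).card : ℤ) - ∑ b, ((Yf N T b).card : ℤ) := by
    simp only [cc, sum_sub_distrib]
  rw [d1, d2]
  simp only [sum_sub_distrib, sum_add_distrib] at h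
  linarith

end Vale.Agent.P038.H518
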