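import Vale.Agent.P038.H518.Par
import Vale.Agent.P038.H518.GG

/-!
# P038 / H518 / Snc : Seymour's second neighbourhood conjecture (helper518)
-/

set_option autoImplicit false
set_option linter.unusedSectionVars false

namespace Vale.Agent.P038.H518

open Finset

variable {V : Type*} [Fintype V] [DecidableEq V]

/-- cost of a pair -/
def cost (N : V → Finset V) (p : (V → Finset V) × (V → Finset V)) : ℤ := ∑ a, cc N (p.1 a) + ∑ b, cc N (p.2 b)

theorem sum_upd (N : V → Finset V) (P : V → Finset V) (a : V) (S : Finset V) :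
    ∑ x, cc N (Function.update P a S x) = ∑ x, cc N (P x) - cc N (P a) + cc N S := by
  rw [← add_sum_erase univ (fun x => cc N (Function.update P a S x)) (mem_univ a),
    ← add_sum_erase univ (fun x => cc N (P x)) (mem_univ a)]
  have : ∑ x ∈ univ.erase a, cc N (Function.update P a S x) = ∑ x ∈ univ.erase a, cc N (P x) := by
    refine sum_congr rfl fun x hx => ?_
    rw [Function.update_of_ne (ne_of_mem_erase hx)]
  rw [this, Function.update_self]
  ring

theorem no_ce [Nonempty V] (D0 : V → Finset V) (hO0 : Ori D0) : ¬ CE D0 := by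
  classical
  intro hC0
  obtain ⟨D, hD, hmin'⟩ := exists_min_image (univ.filter (fun D : V → Finset V => Ori D ∧ CE D)) arcs
    ⟨D0, by simp [hO0, hC0]⟩
  simp only [mem_filter, mem_univ, true_and] at hD hmin'
  obtain ⟨hO, hC⟩ := hD
  have hmin : ∀ D' : V → Finset V, Ori D' → CE D' → arcs D ≤ arcs D' := fun D' h1 h2 => hmin' D' ⟨h1, h2⟩
  have hr : ∀ x, x ∈ Nc D x := fun x => mem_Nc.2 (Or.inl rfl)
  have ha : ∀ x y, y ∈ Nc D x → x ∈ Nc D y → y = x := by
    intro x y h1 h2
    rcases mem_Nc.1 h1 with h | h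
    · exact h
    · rcases mem_Nc.1 h2 with h' | h'
      · exact h'.symm
      · exact absurd h' (hO.2 x y h)
  -- the outer optimum
  obtain ⟨⟨P, T⟩, hPT, hopt'⟩ := exists_min_image
    (univ.filter (fun p : (V → Finset V) × (V → Finset V) => Outer (Nc D) p.1 p.2)) (cost (Nc D))
    ⟨(Nc D, Nc D), by
      simp only [mem_filter, mem_univ, true_and]
      exact ⟨fun a => Subset.rfl, fun a => Subset.rfl, fun a b h1 h2 => ha a b h1 h2⟩⟩
  simp only [mem_filter, mem_univ, true_and] at hPT hopt'
  have hopt : ∀ P' T', Outer (Nc D) P' T' → cost (Nc D) (P, T) ≤ cost (Nc D) (P', T') := fun P' T' h => hopt' (P', T') h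
  have hoP : ∀ a, HH (cc (Nc D)) (P a) (Qt T a) := by
    intro a O hOs
    have h := hopt (Function.update P a (P a ∪ O)) T ⟨by
      intro x
      by_cases hx : x = a
      · subst hx; rw [Function.update_self]; exact (hPT.hP x).trans subset_union_left
      · rw [Function.update_of_ne hx]; exact hPT.hP x, hPT.hT, by
      intro x b h1 h2
      by_cases hx : x = a
      · subst hx
        rw [Function.update_self, mem_union] at h1
        rcases h1 with h1 | h1
        · exact hPT.ort x b h1 h2
        · have := hOs h1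
          simp only [Qt, mem_filter, mem_univ, true_and] at this
          rcases this with h3 | h3
          · exact absurd h2 h3
          · exact h3
      · rw [Function.update_of_ne hx] at h1
        exact hPT.ort x b h1 h2⟩
    simp only [cost, sum_upd] at h
    linarith
  have hoT : ∀ b, HH (cc (Nc D)) (T b) (Mx P b) := by
    intro b O hOs
    have h := hopt P (Function.update T b (T b ∪ O)) ⟨hPT.hP, by
      intro x
      by_cases hx : x = b
      · subst hx; rw [Function.update_self]; exact (hPT.hT x).trans subset_union_left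
      · rw [Function.update_of_ne hx]; exact hPT.hT x, by
      intro a x h1 h2
      by_cases hx : x = b
      · subst hx
        rw [Function.update_self, mem_union] at h2
        rcases h2 with h2 | h2
        · exact hPT.ort a x h1 h2
        · have := hOs h2
          simp only [Mx, mem_filter, mem_univ, true_and] at this
          rcases this with h3 | h3
          · exact absurd h1 h3
          · exact h3.symm
      · rw [Function.update_of_ne hx] at h2
        exact hPT.ort a x h1 h2⟩
    simp only [cost, sum_upd] at h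
    linarith
  have hineq := main_ineq hr ha hPT hoP hoT
  have hin := inner_of_outer hr ha hPT
  obtain ⟨Y, hY⟩ : ∃ Y, Y = Yf (Nc D) P := ⟨_, rfl⟩
  obtain ⟨Z, hZ⟩ : ∃ Z, Z = Yf (Nc D) T := ⟨_, rfl⟩
  rw [← hY, ← hZ] at hineq hin
  have hle : ∀ X, cc (Nc D) (nb (Nc D) X) ≤ cc (Nc D) X := by
    intro X
    by_cases h : nb (Nc D) X = X
    · rw [h]
    · exact (gg hO hC hmin X h).le
  have hout : Outer (Nc D) (fun a => nb (Nc D) (Y a)) (fun b => nb (Nc D) (Z b)) :=
    ⟨fun a y hy => (mem_nb _).2 ⟨a, hin.hY a, hy⟩, fun a y hy => (mem_nb _).2 ⟨a, hin.hZ a, hy⟩, hin.ort⟩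
  have hfin := hopt _ _ hout
  simp only [cost] at hfin
  -- strictness
  have hstr : (∃ a, nb (Nc D) (Y a) ≠ Y a) ∨ ∃ b, nb (Nc D) (Z b) ≠ Z b := by
    by_contra hcon
    push Not at hcon
    obtain ⟨hcY, hcZ⟩ := hcon
    obtain ⟨C, hCm, hCmin⟩ := exists_min_image
      (univ.filter (fun C : Finset V => C.Nonempty ∧ nb (Nc D) C = C)) Finset.card ⟨univ, by
        simp only [mem_filter, mem_univ, true_and]
        exact ⟨univ_nonempty, Subset.antisymm (subset_univ _) (sub_nb D _)⟩⟩
    simp only [mem_filter, mem_univ, true_and] at hCm hCmin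
    obtain ⟨⟨a, haC⟩, hCc⟩ := hCm
    have hpos : 0 < (D a).card := (Nat.zero_le _).trans_lt (hC a)
    obtain ⟨b, hb⟩ := card_pos.1 hpos
    have hbC : b ∈ C := by
      rw [← hCc]
      exact (mem_nb _).2 ⟨a, haC, mem_Nc.2 (Or.inr hb)⟩
    have hcl : ∀ S : Finset V, nb (Nc D) S = S → ∀ x ∈ S, x ∈ C → C ⊆ S := by
      intro S hS x hxS hxC
      have h1 : nb (Nc D) (S ∩ C) = S ∩ C := by
        refine Subset.antisymm (subset_inter ?_ ?_) (sub_nb D _)
        · exact (nb_mono _ inter_subset_left).trans (le_of_eq hS)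
        · exact (nb_mono _ inter_subset_right).trans (le_of_eq hCc)
      have h2 := hCmin (S ∩ C) ⟨⟨x, mem_inter.2 ⟨hxS, hxC⟩⟩, h1⟩
      have h3 := eq_of_subset_of_card_le (inter_subset_right : S ∩ C ⊆ C) h2
      intro y hy
      rw [← h3] at hy
      exact (mem_inter.1 hy).1
    have h1 : b ∈ Y a := hcl (Y a) (hcY a) a (hin.hY a) haC hbC
    have h2 : a ∈ Z b := hcl (Z b) (hcZ b) b (hin.hZ b) hbC haC
    have h3 := hin.ort a b (sub_nb D _ h1) (sub_nb D _ h2)
    rw [h3] at hb
    exact hO.1 a hb
  have hlt : ∑ a, cc (Nc D) (nb (Nc D) (Y a)) + ∑ b, cc (Nc D) (nb (Nc D) (Z b)) <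
      ∑ a, cc (Nc D) (Y a) + ∑ b, cc (Nc D) (Z b) := by
    rcases hstr with ⟨a, h⟩ | ⟨b, h⟩
    · have := sum_lt_sum (s := univ) (fun x _ => hle (Y x)) ⟨a, mem_univ a, gg hO hC hmin (Y a) h⟩
      have h2 := sum_le_sum (s := univ) (fun x _ => hle (Z x))
      linarith
    · have := sum_lt_sum (s := univ) (fun x _ => hle (Z x)) ⟨b, mem_univ b, gg hO hC hmin (Z b) h⟩
      have h2 := sum_le_sum (s := univ) (fun x _ => hle (Y x))
      linarith
  linarith

/-- **Seymour's second neighbourhood conjecture** -/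
theorem snc [Nonempty V] (D : V → Finset V) (hO : Ori D) : ∃ v, (D v).card ≤ (D2 D v).card := by
  by_contra h
  push Not at h
  exact no_ce D hO h

end Vale.Agent.P038.H518
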